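import Vale.Agent.P280A30.Rows
import Vale.Agent.P299G11.Frm
import Vale.Agent.P299G50.Hol

/-!
# P280A: the row `TAN`
-/

open scoped Manifold ContDiff Topology
open MvPolynomial Matrix Filter
open Vale.Agent.P272.K Vale.Agent.P300.Final Vale.Agent.P299G40
open Vale.Agent.P009.AV (aff)

noncomputable section

namespace Vale.Agent.P280A

variable {n N : ℕ} {X : Type} [TopologicalSpace X] [ChartedSpace (Cm n) X]
  [IsManifold 𝓘(ℂ, Cm n) ω X] {Φ : X → PN N} {e e' : Chart n X} {x : X}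

theorem t13_diff (hΦ : IsProjectiveImmersion (Cm n) Φ) (h : At e x) {i : Fin (N + 1)}
    (hi : (Φ x).rep i ≠ 0) (j : Fin (N + 1)) :
    DifferentiableAt ℂ (fun z => aff i (Φ (e.symm z)) j) (e x) :=
  ((P299G50.aff_holo hΦ h hi).2 j).differentiableAt (by simp)

theorem t13_key (hΦ : IsProjectiveImmersion (Cm n) Φ) (h : At e x) {f : Cm n → Fin (N + 1) → ℂ}
    (hf : ContDiffAt ℂ ω f (e x)) (h0 : f (e x) = (Φ x).rep)
    (hev : ∀ᶠ z in 𝓝 (e x), ∃ c : ℂ, c ≠ 0 ∧ f z = c • (Φ (e.symm z)).rep)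
    {i : Fin (N + 1)} (hi : (Φ x).rep i ≠ 0) (ξ : Cm n) :
    (Φ x).rep i • dAff Φ e i x ξ =
      fderiv ℂ f (e x) ξ - (fderiv ℂ f (e x) ξ i / (Φ x).rep i) • (Φ x).rep := by
  funext j
  have h1 : dAff Φ e i x ξ j = fderiv ℂ (fun z => aff i (Φ (e.symm z)) j) (e x) ξ := by
    unfold dAff
    rw [show (fun z => aff i (Φ (e.symm z))) = fun z j => aff i (Φ (e.symm z)) j from rfl,
      fderiv_pi (t13_diff hΦ h hi)]
    rfl
  simp only [Pi.smul_apply, Pi.sub_apply, smul_eq_mul]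
  rw [h1, P299G11.fderiv_aff hf h0 hev hi]
  field_simp

theorem t13_chart (hΦ : IsProjectiveImmersion (Cm n) Φ) (h : At e x) (h' : At e' x)
    {i : Fin (N + 1)} (hi : (Φ x).rep i ≠ 0) (ξ : Cm n) :
    dAff Φ e i x ξ = dAff Φ e' i x (jacM e e' x *ᵥ ξ) := by
  have h2 : e' (e.symm (e x)) = e' x := by rw [h.left_inv]
  have ht := transition_differentiableAt h h'
  have hd : DifferentiableAt ℂ (fun z => aff i (Φ (e'.symm z))) (e' (e.symm (e x))) := by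
    rw [h2]
    exact differentiableAt_pi.2 (t13_diff hΦ h' hi)
  have h3 : (fun z => aff i (Φ (e.symm z))) =ᶠ[𝓝 (e x)]
      (fun z => aff i (Φ (e'.symm z))) ∘ fun z => e' (e.symm z) := by
    filter_upwards [h.nhds_at h'] with z hz
    rw [Function.comp_apply, hz.2.2.left_inv]
  have h4 : fderiv ℂ (fun z => e' (e.symm z)) (e x) ξ = jacM e e' x *ᵥ ξ :=
    funext fun p => jmat_mulVec ht ξ p
  unfold dAff
  rw [h3.fderiv_eq, fderiv_comp (f := fun z => e' (e.symm z)) (e x) hd ht,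
     h2, ContinuousLinearMap.comp_apply, h4]

omit [ChartedSpace (Cm n) X] [IsManifold 𝓘(ℂ, Cm n) ω X] in
theorem t13_tan {Z : Set (PN N)} (hZ : IsSmoothVariety n Z) (hmem : ∀ y, Φ y ∈ Z)
    {f : Cm n → Fin (N + 1) → ℂ} (hf : ContDiffAt ℂ ω f (e x)) (h0 : f (e x) = (Φ x).rep)
    (hev : ∀ᶠ z in 𝓝 (e x), ∃ c : ℂ, c ≠ 0 ∧ f z = c • (Φ (e.symm z)).rep)
    (him : ∀ v (c : ℂ), fderiv ℂ f (e x) v = c • (Φ x).rep → v = 0) (w : Fin (N + 1) → ℂ) :
    w ∈ tangent Z (Φ x) ↔ ∃ (c : ℂ) (ξ : Cm n), w = c • (Φ x).rep + fderiv ℂ f (e x) ξ := by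
  set r := (Φ x).rep with hr
  set L := fderiv ℂ f (e x) with hL
  have hd : HasFDerivAt f L (e x) := (hf.differentiableAt (by simp)).hasFDerivAt
  have hLt : ∀ v, L v ∈ tangent Z (Φ x) := by
    rintro v P ⟨⟨d, hP⟩, hP0⟩
    obtain ⟨D, hD, hD'⟩ := P299G11.exists_fderiv P r
    have h1 : HasFDerivAt (fun z => eval (f z) P) (D.comp L) (e x) :=
      HasFDerivAt.comp (g := fun y => eval y P) (e x) (by rwa [h0]) hd
    have h2 : (fun z => eval (f z) P) =ᶠ[𝓝 (e x)] fun _ => 0 := by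
      filter_upwards [hev] with z hz
      obtain ⟨c, -, hz⟩ := hz
      rw [hz, P009.AV.H532.eval_smul' hP, hP0 _ (hmem _), mul_zero]
    have h3 := (h1.congr_of_eventuallyEq h2.symm).unique (hasFDerivAt_const (0 : ℂ) (e x))
    rw [← hr, ← hD']
    exact congrArg (fun T : Cm n →L[ℂ] ℂ => T v) h3
  have hrt : r ∈ tangent Z (Φ x) := by
    rintro P ⟨⟨d, hP⟩, hP0⟩
    have h1 := congrArg (eval r) hP.sum_X_mul_pderiv
    rw [map_nsmul, hP0 _ (hmem x), smul_zero, map_sum] at h1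
    simpa [polynomialDifferential] using h1
  let T : (ℂ × Cm n) →ₗ[ℂ] (Fin (N + 1) → ℂ) :=
    (LinearMap.toSpanSingleton ℂ _ r).coprod (L : Cm n →ₗ[ℂ] _)
  have hT : ∀ p, T p = p.1 • r + L p.2 := fun p => rfl
  have hinj : Function.Injective T := by
    rw [← LinearMap.ker_eq_bot, LinearMap.ker_eq_bot']
    rintro ⟨c, ξ⟩ hp
    rw [hT] at hp
    have h1 : ξ = 0 := him ξ (-c) (by rw [neg_smul]; exact eq_neg_of_add_eq_zero_right hp)
    subst h1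
    simp only [map_zero, add_zero, smul_eq_zero] at hp
    rw [hp.resolve_right (Φ x).rep_nonzero]
    rfl
  have hle : LinearMap.range T ≤ tangent Z (Φ x) := by
    rintro _ ⟨p, rfl⟩
    rw [hT]
    exact add_mem (Submodule.smul_mem _ _ hrt) (hLt _)
  have heq := Submodule.eq_of_le_of_finrank_eq hle (by
    rw [LinearMap.finrank_range_of_inj hinj, hZ.smooth _ (hmem x)]
    simp [add_comm])
  rw [← heq]
  exact ⟨fun ⟨p, hp⟩ => ⟨p.1, p.2, hp.symm⟩, fun ⟨c, ξ, hp⟩ => ⟨(c, ξ), hp.symm⟩⟩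

theorem tan13 : TAN := by
  intro n N Z X _ _ _ Φ hZ hA e x i h hi
  have hΦ := hA.2.1
  have hmem : ∀ y, Φ y ∈ Z := fun y => hA.2.2 ▸ Set.mem_range_self y
  obtain ⟨f, hf, h0, hev, him⟩ := P299G11.exists_lift hΦ h
  have K := t13_key hΦ h hf h0 hev hi
  refine ⟨fun w => ?_, fun κ ξ hξ => ?_, fun e' i' h' hi' ξ => ?_⟩
  · rw [t13_tan hZ hmem hf h0 hev him]
    refine ⟨fun ⟨c, ξ, hw⟩ => ⟨c + fderiv ℂ f (e x) ξ i / (Φ x).rep i, ξ, ?_⟩,
      fun ⟨c, ξ, hw⟩ => ⟨c - fderiv ℂ f (e x) ξ i / (Φ x).rep i, ξ, ?_⟩⟩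
    · rw [hw, K, add_smul]
      abel
    · rw [hw, K, sub_smul]
      abel
  · have h1 : ξ = 0 := by
      refine him ξ (fderiv ℂ f (e x) ξ i / (Φ x).rep i - κ) ?_
      rw [K] at hξ
      rw [sub_smul, ← sub_eq_zero, ← hξ]
      abel
    subst h1
    simp only [map_zero, smul_zero, add_zero, smul_eq_zero] at hξ
    exact ⟨hξ.resolve_right (Φ x).rep_nonzero, rfl⟩
  · obtain ⟨g, hg, g0, gev, -⟩ := P299G11.exists_lift hΦ h'
    rw [t13_chart hΦ h h' hi, t13_key hΦ h' hg g0 gev hi, t13_key hΦ h' hg g0 gev hi']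
    refine ⟨fderiv ℂ g (e' x) (jacM e e' x *ᵥ ξ) i' / (Φ x).rep i' -
      fderiv ℂ g (e' x) (jacM e e' x *ᵥ ξ) i / (Φ x).rep i, ?_⟩
    rw [sub_smul]
    abel

end Vale.Agent.P280A

end
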